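import Vale.Agent.P272.F.StmtC

/-! Statement definitions for P270: line bundles, nef line bundles, sections of `m (K + M)`. -/

open scoped ContDiff

namespace Vale.Agent.P270

open P272

variable (n : ℕ) (X : Type) [TopologicalSpace X] [ChartedSpace (E n) X]

/-- A holomorphic line bundle, trivialised on an open neighbourhood `U x` of each point `x`, with
transition functions `t x x'` on `U x ∩ U x'`. -/
structure LineB where
  U : X → Set X
  op : ∀ x, IsOpen (U x)
  mem : ∀ x, x ∈ U x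
  sub : ∀ x, U x ⊆ (chartAt (E n) x).source
  t : X → X → X → ℂ
  hol : ∀ x x', DifferentiableOn ℂ (t x x' ∘ (chartAt (E n) x).symm)
    (chartAt (E n) x '' (U x ∩ U x'))
  one : ∀ x p, p ∈ U x → t x x p = 1
  coc : ∀ x x' x'' p, p ∈ U x → p ∈ U x' → p ∈ U x'' → t x x' p * t x' x'' p = t x x'' p

variable {n X}

/-- `M` is nef: for every `ε > 0` it has a smooth metric `exp (-φ)` of curvature `≥ -ε g`. -/
def LineB.Nef (M : LineB n X) (g : HermMetric n X) : Prop :=
  ∀ ε : ℝ, 0 < ε → ∃ φ : X → E n → ℝ,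
    (∀ x, ContDiffOn ℝ ∞ (φ x) (chartAt (E n) x '' M.U x)) ∧
    (∀ x x' p, p ∈ M.U x → p ∈ M.U x' → φ x' (chartAt (E n) x' p) =
      φ x (chartAt (E n) x p) + Real.log (‖M.t x x' p‖ ^ 2)) ∧
    ∀ x, ∀ y ∈ chartAt (E n) x '' M.U x, ∀ a, -ε * qf (g.Γ x y) a ≤ levi (φ x) y a

/-- A holomorphic section of `m (K + M)`: `s x y` is its coefficient at the point `y` of the chart
at `x`. -/
structure AdjSec (M : LineB n X) (m : ℕ) where
  s : X → E n → ℂ
  hol : ∀ x, DifferentiableOn ℂ (s x) (chartAt (E n) x '' M.U x)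
  compat : ∀ x x' p, p ∈ M.U x → p ∈ M.U x' → s x' (chartAt (E n) x' p) =
    s x (chartAt (E n) x p) * ((jac n X x x' p).det * M.t x x' p) ^ m

/-- `K + M` is semiample: some positive multiple is generated by its global sections. -/
def LineB.AdjSemi (M : LineB n X) : Prop :=
  ∃ m : ℕ, 1 ≤ m ∧ ∀ p, ∃ σ : AdjSec M m, σ.s p (chartAt (E n) p p) ≠ 0

end Vale.Agent.P270
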