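import Vale.Agent.P270.Peak
import Vale.Agent.P270.Stmt
import Vale.Agent.P272.F.Z.Atl
import Vale.Agent.P272.F.Kit.Bd

/-! P270: from a positive canonical bundle on a finite atlas to `K + M` semiample. -/

open Metric Set Filter Topology Complex
open scoped Manifold ContDiff

noncomputable section

namespace Vale.Agent.P270

open P272

variable {n : ℕ} {X : Type} [TopologicalSpace X] [ChartedSpace (E n) X]

theorem img_open (x : X) {S : Set X} (hS : IsOpen S) (h : S ⊆ (chartAt (E n) x).source) :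
    IsOpen (chartAt (E n) x '' S) :=
  (chartAt (E n) x).isOpen_image_of_subset_source hS h

theorem t_diff (M : LineB n X) {x x' p : X} {e : OpenPartialHomeomorph X (E n)}
    (c : zCp (chartAt (E n) x) e) (hx : p ∈ M.U x) (hx' : p ∈ M.U x') (he : p ∈ e.source) :
    DifferentiableAt ℂ (M.t x x' ∘ e.symm) (e p) := by
  have h1 : DifferentiableAt ℂ (M.t x x' ∘ (chartAt (E n) x).symm)
      ((chartAt (E n) x ∘ e.symm) (e p)) := by
    rw [Function.comp_apply, e.left_inv he]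
    exact (M.hol x x').differentiableAt ((img_open x ((M.op x).inter (M.op x'))
      (inter_subset_left.trans (M.sub x))).mem_nhds ⟨p, ⟨hx, hx'⟩, rfl⟩)
  refine (h1.comp _ (c p (M.sub x hx) he)).congr_of_eventuallyEq ?_
  exact (z_ev (M.sub x hx) he).mono fun y hy => by
    simp only [Function.comp, (chartAt (E n) x).left_inv hy.2]

theorem t_ne (M : LineB n X) {x x' p : X} (hx : p ∈ M.U x) (hx' : p ∈ M.U x') :
    M.t x x' p ≠ 0 := fun h => by
  have h1 := M.coc x x' x p hx hx' hx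
  rw [h, zero_mul, M.one x p hx] at h1
  exact zero_ne_one h1

variable [IsManifold 𝓘(ℂ, E n) ω X]

theorem w_data [CompactSpace X] (g : HermMetric n X) (hg : g.IsKahler) (W : X → Set (E n))
    (hW : ∀ x, IsOpen (W x)) (hw : ∀ x, chartAt (E n) x x ∈ W x) :
    ∃ (A : Atl n X) (x : Fin A.N → X) (r : Fin A.N → ℝ) (ρ : A.Pot), A.Cz ∧ ρ.Pos ∧
      Nonempty A.LV ∧
      (∀ j, ∀ y ∈ (A.e j).target, chartAt (E n) (x j) (x j) + r j • y ∈ W (x j)) ∧
      (∀ j, ∀ p ∈ (A.e j).source, p ∈ (chartAt (E n) (x j)).source) ∧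
      (∀ j p, chartAt (E n) (x j) (x j) + r j • A.e j p = chartAt (E n) (x j) p) ∧
      ∀ j, ∀ y ∈ (A.e j).target, ∀ a, levi (ρ.u j) y a =
        r j ^ 2 * qf (g.Γ (x j) (chartAt (E n) (x j) (x j) + r j • y)) a := by
  have hg' : ∀ x, ∃ (u : E n → ℝ) (U : Set (E n)), IsOpen U ∧ chartAt (E n) x x ∈ U ∧
      U ⊆ (chartAt (E n) x).target ∧ ContDiffOn ℝ ∞ u U ∧
      (∀ y ∈ U, ∀ a, levi u y a = qf (g.Γ x y) a) ∧ U ⊆ W x := fun x => by
    obtain ⟨u, U, h1, h2, h3, h4, h5⟩ := hg x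
    exact ⟨u, U ∩ W x, h1.inter (hW x), ⟨h2, hw x⟩, inter_subset_left.trans h3,
      h4.mono inter_subset_left, fun y hy => h5 y hy.1, inter_subset_right⟩
  choose u U hU hx hs hu hl hUW using hg'
  obtain ⟨A, hA, h⟩ := z_atl U hU hx hs
  choose x r hr he using h
  have tg : ∀ j, ∀ y ∈ (A.e j).target, chartAt (E n) (x j) (x j) + r j • y ∈ U (x j) :=
    fun j y hy => by rwa [he] at hy
  have sr : ∀ j, ∀ p ∈ (A.e j).source, p ∈ (chartAt (E n) (x j)).source :=
    fun j p hp => by rw [he] at hp; exact hp.1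
  have ap : ∀ j p, chartAt (E n) (x j) (x j) + r j • A.e j p = chartAt (E n) (x j) p :=
    fun j p => by rw [he, zCh_app]
  have jc : ∀ j, ∀ p ∈ (A.e j).source, zJ (chartAt (E n) (x j)) (A.e j) p = r j • (1 : L n) :=
    fun j p hp => by
      rw [he] at hp ⊢
      exact (zCh_d hp).fderiv
  let Γ : Fin A.N → E n → L n := fun j y => star (r j • (1 : L n)) *
    g.Γ (x j) (chartAt (E n) (x j) (x j) + r j • y) * r j • (1 : L n)
  have q : ∀ j y a, qf (Γ j y) a =
      r j ^ 2 * qf (g.Γ (x j) (chartAt (E n) (x j) (x j) + r j • y)) a := fun j y a => by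
    rw [qf_conj]
    simpa using qf_smul (g.Γ (x j) (chartAt (E n) (x j) (x j) + r j • y)) (r j) a
  have pos : ∀ j, ∀ y ∈ (A.e j).target, ∀ a, a ≠ 0 → 0 < qf (Γ j y) a := fun j y hy a ha => by
    rw [q]
    exact mul_pos (sq_pos_of_ne_zero (hr j)) (g.pos _ _ (hs _ (tg j y hy)) a ha)
  have cmp : ∀ j k p, p ∈ (A.e j).source → p ∈ (A.e k).source →
      Γ k (A.e k p) = star (A.tr j k p) * Γ j (A.e j p) * A.tr j k p := fun j k p hj hk => by
    have h1 := (z_comp (z_jac (x j) (x k)) (hA k (x k)).2 (sr j p hj) (sr k p hk) hk).2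
    have h2 := (z_comp (hA j (x j)).2 (A.hol j k) (sr j p hj) hj hk).2
    rw [h1, jc j p hj, jc k p hk] at h2
    simp only [Γ, ap]
    rw [g.compat (x j) (x k) p (sr j p hj) (sr k p hk)]
    calc _ = star (zJ (chartAt (E n) (x j)) (chartAt (E n) (x k)) p * r k • (1 : L n)) *
          g.Γ (x j) (chartAt (E n) (x j) p) *
          (zJ (chartAt (E n) (x j)) (chartAt (E n) (x k)) p * r k • (1 : L n)) := by
          simp only [star_mul, mul_assoc]
          rfl
      _ = _ := by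
          rw [h2]
          simp only [star_mul, mul_assoc]
          rfl
  have lv : ∀ j, ∀ y ∈ (A.e j).target, ∀ a,
      levi (fun y => u (x j) (chartAt (E n) (x j) (x j) + r j • y)) y a = qf (Γ j y) a :=
    fun j y hy a => by rw [z_levi, hl _ _ (tg j y hy), q]
  refine ⟨A, x, r, ⟨fun j y => u (x j) (chartAt (E n) (x j) (x j) + r j • y),
    fun j => (hu _).comp (by fun_prop) (tg j), fun j k p hj hk a => ?_⟩, hA,
    fun j y hy a ha => ?_, z_lv A Γ (fun j => ?_) pos cmp, fun j y hy => hUW _ (tg j y hy), sr, ap,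
    fun j y hy a => (lv j y hy a).trans (q j y a)⟩
  · rw [lv k _ ((A.e k).map_source hk), lv j _ ((A.e j).map_source hj), cmp j k p hj hk, qf_conj]
  · exact (pos j y hy a ha).trans_eq (lv j y hy a).symm
  · exact (contDiffOn_const.mul ((g.smooth _).comp (by fun_prop) fun y hy =>
      hs _ (tg j y hy))).mul contDiffOn_const

theorem w_sec {A : Atl n X} (hA : A.Cz) (M : LineB n X) (x : Fin A.N → X)
    (sr : ∀ j, ∀ p ∈ (A.e j).source, p ∈ M.U (x j)) (D : Tw A)
    (hD : ∀ j k p, D.g j k p = (A.tr j k p).det * M.t (x j) (x k) p) {m : ℕ} (σ : D.Sec m) :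
    ∃ τ : AdjSec M m, ∀ p, σ.s (A.ch p) (A.e (A.ch p) p) ≠ 0 →
      τ.s p (chartAt (E n) p p) ≠ 0 := by
  let S : X → X → ℂ := fun z p => σ.s (A.ch p) (A.e (A.ch p) p) *
    ((zJ (A.e (A.ch p)) (chartAt (E n) z) p).det * M.t (x (A.ch p)) z p) ^ m
  have hS : ∀ z j p, p ∈ (A.e j).source → p ∈ M.U z → S z p = σ.s j (A.e j p) *
      ((zJ (A.e j) (chartAt (E n) z) p).det * M.t (x j) z p) ^ m := fun z j p hj hz => by
    simp only [S]
    rw [σ.cmp j _ p hj (A.z_ch p), hD,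
      (z_comp (A.hol j _) (hA _ z).1 hj (A.z_ch p) (M.sub z hz)).2, det_mul',
      ← M.coc (x j) (x (A.ch p)) z p (sr j p hj) (sr _ p (A.z_ch p)) hz, mul_assoc, ← mul_pow,
      mul_mul_mul_comm]
    rfl
  refine ⟨⟨fun z y => S z ((chartAt (E n) z).symm y), fun z => ?_, fun z z' p hz hz' => ?_⟩,
    fun p hp => ?_⟩
  · rintro _ ⟨p, hp, rfl⟩
    have hz := M.sub z hp
    have hj := A.z_ch p
    have h1 := z_an (hA (A.ch p) z).1 hj hz
    have h2 : DifferentiableAt ℂ (fun y => (fderiv ℂ (A.e (A.ch p) ∘ (chartAt (E n) z).symm) y).det)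
        (chartAt (E n) z p) := ((analyticAt_det _).comp h1.fderiv).differentiableAt
    have h3 : DifferentiableAt ℂ (σ.s (A.ch p))
        ((A.e (A.ch p) ∘ (chartAt (E n) z).symm) (chartAt (E n) z p)) := by
      rw [Function.comp_apply, (chartAt (E n) z).left_inv hz]
      exact (σ.hol _).differentiableAt ((A.e _).open_target.mem_nhds ((A.e _).map_source hj))
    have h4 := t_diff M (z_jac (x (A.ch p)) z) (sr _ p hj) hp hz
    refine (((h3.comp _ h1.differentiableAt).mul ((h2.mul h4).pow m)).congr_of_eventuallyEq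
      ?_).differentiableWithinAt
    filter_upwards [z_ev hj hz, (img_open z (M.op z) (M.sub z)).mem_nhds ⟨p, hp, rfl⟩]
      with y hy hy'
    obtain ⟨p', h5, rfl⟩ := hy'
    have h6 := (chartAt (E n) z).left_inv (M.sub z h5)
    rw [h6] at hy
    simp only [h6, hS z _ p' hy.2 h5, zJ, Function.comp, Pi.mul_apply, Pi.pow_apply]
  · simp only [(chartAt (E n) z).left_inv (M.sub z hz), (chartAt (E n) z').left_inv (M.sub z' hz'),
      S]
    rw [(z_comp (hA _ z).1 (z_jac z z') (A.z_ch p) (M.sub z hz) (M.sub z' hz')).2, det_mul',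
      ← M.coc (x (A.ch p)) z z' p (sr _ p (A.z_ch p)) hz hz', mul_mul_mul_comm, mul_pow,
      ← mul_assoc]
    rfl
  · simp only [(chartAt (E n) p).left_inv (mem_chart_source _ p), S]
    exact mul_ne_zero hp (pow_ne_zero m (mul_ne_zero
      (z_det (hA _ p).1 (hA _ p).2 (A.z_ch p) (mem_chart_source _ p))
      (t_ne M (sr _ p (A.z_ch p)) (M.mem p))))

theorem w_full [T2Space X] [CompactSpace X] (g : HermMetric n X) (hg : g.IsKahler)
    (hy : ∀ f : ℂ → X, MDifferentiable 𝓘(ℂ, ℂ) 𝓘(ℂ, E n) f → ∀ z w, f z = f w)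
    (M : LineB n X) (hM : M.Nef g)
    (h : ∀ A : Atl n X, A.Hyp → ∀ ρ : A.Pot, ρ.Pos → A.LV →
      ∃ v : A.LV, ∀ j, ∀ y ∈ (A.e j).target, ∀ a, a ≠ 0 → 0 < levi (v.l j) y a) :
    M.AdjSemi := by
  obtain ⟨A, x, r, ρ, hA, hρ, ⟨v₀⟩, tg, sr, ap, lv⟩ := w_data g hg
    (fun x => chartAt (E n) x '' M.U x) (fun x => img_open x (M.op x) (M.sub x))
    fun x => ⟨x, M.mem x, rfl⟩
  obtain ⟨v, hv⟩ := h A (hA.hyp hy) ρ hρ v₀
  obtain ⟨C, hC1, hC⟩ := ρ.le_pos (ρ := v.toPot) hv
  obtain ⟨φ, h1, h2, h3⟩ := hM (1 / (2 * C)) (by positivity)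
  have su : ∀ j, ∀ p ∈ (A.e j).source, p ∈ M.U (x j) := fun j p hp => by
    obtain ⟨p', h4, h5⟩ := tg j _ ((A.e j).map_source hp)
    rw [ap] at h5
    rwa [← (chartAt (E n) (x j)).injOn (M.sub _ h4) (sr j p hp) h5]
  have sm : ∀ j, ContDiffOn ℝ ∞ (fun y => φ (x j) (chartAt (E n) (x j) (x j) + r j • y))
      (A.e j).target := fun j => (h1 _).comp (by fun_prop) (tg j)
  let D : Tw A := ⟨fun j k p => (A.tr j k p).det * M.t (x j) (x k) p,
    fun j k l p hj hk hl => (K.dt_an hj hk hl).differentiableAt.mul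
      (t_diff M (hA l (x j)).2 (su j p hj) (su k p hk) hl),
    fun i j k p hi hj hk => by
      rw [mul_mul_mul_comm, M.coc _ _ _ p (su i p hi) (su j p hj) (su k p hk)]
      exact congrArg (· * _) (K.dt_coc hi hj hk),
    fun i p hi => by
      rw [M.one _ p (su i p hi), mul_one]
      exact K.dt_one hi,
    fun j y => 1 * v.l j y - (-1) * φ (x j) (chartAt (E n) (x j) (x j) + r j • y),
    fun j => (contDiffOn_const.mul (v.sm j)).sub (contDiffOn_const.mul (sm j)),
    fun j k p hj hk => by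
      have h0 : (A.tr j k p).det ≠ 0 := K.dt_ne hj hk
      rw [v.cmp j k p hj hk, ap, ap, h2 _ _ p (su j p hj) (su k p hk), norm_mul, mul_pow,
        Real.log_mul (pow_ne_zero 2 (norm_ne_zero_iff.2 h0))
          (pow_ne_zero 2 (norm_ne_zero_iff.2 (t_ne M (su j p hj) (su k p hk))))]
      ring⟩
  have key : ∀ j, ∀ y ∈ (A.e j).target, ∀ a, levi (v.l j) y a ≤ 2 * levi (D.ψ j) y a := by
    intro j y hy a
    have hn := (A.e j).open_target.mem_nhds hy
    have e1 := K.levi_lin (((v.sm j).contDiffAt hn).of_le ENat.LEInfty.out)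
      (((sm j).contDiffAt hn).of_le ENat.LEInfty.out) 1 (-1) a
    have e2 := h3 _ _ (tg j y hy) a
    have e3 := (le_abs_self _).trans (hC j _ a ((A.e j).map_target hy))
    rw [(A.e j).right_inv hy, lv j y hy] at e3
    rw [z_levi] at e1
    have e4 := mul_le_mul_of_nonneg_left e2 (sq_nonneg (r j))
    have e5 := mul_le_mul_of_nonneg_left e3 (show 0 ≤ 1 / (2 * C) by positivity)
    have e6 : 1 / (2 * C) * (C * levi (v.toPot.u j) y a) = levi (v.l j) y a / 2 := by
      change 1 / (2 * C) * (C * levi (v.l j) y a) = _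
      field_simp
    change _ ≤ 2 * levi (fun y => 1 * v.l j y -
      (-1) * φ (x j) (chartAt (E n) (x j) (x j) + r j • y)) y a
    rw [e1]
    linarith
  obtain ⟨m, hm, hs⟩ := tw_semi D v
    (fun j y hy a ha => by linarith [hv j y hy a ha, key j y hy a]) key
  refine ⟨m, hm, fun p => ?_⟩
  obtain ⟨σ, hσ⟩ := hs p
  obtain ⟨τ, hτ⟩ := w_sec hA M x su D (fun _ _ _ => rfl) σ
  exact ⟨τ, hτ p hσ⟩

end Vale.Agent.P270
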