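import Vale.Agent.P270.Tw
import Vale.Agent.P272.F.K.LocC

/-! P270: peak sections of a positive line bundle; a positive line bundle is semiample. -/

open Metric Set Filter Topology MeasureTheory
open scoped ContDiff ENNReal ComplexConjugate

noncomputable section

namespace Vale.Agent.P270

open P272 P272.K

variable {n : ℕ} {X : Type} [TopologicalSpace X]

variable {A : Atl n X} {C : Cv n X} {k : Fin C.N → Fin A.N} {Q f : Fin C.N → E n → ℂ}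

theorem pk_step (D : Tw A) (v : A.LV) (hk : C.On A k) (hQ : ∀ i, Differentiable ℂ (Q i))
    (hf : ∀ i, Differentiable ℂ (f i)) {α β ρ κ K V : ℝ} (hρ : 0 < ρ) (hκ0 : 0 < κ)
    (hκ : ∀ i, ∀ y ∈ C.bl i, ∀ a, κ * ‖a‖ ^ 2 ≤ levi (D.ψ (k i)) y a)
    (hv : ∀ j, ∀ y ∈ (A.e j).target, ∀ a, levi (v.l j) y a ≤ 2 * levi (D.ψ j) y a)
    (hK : ∀ i, ∀ y ∈ C.bl i, |v.l (k i) y| ≤ K ∧ ‖f i y‖ ≤ K) (hV0 : 0 ≤ V)
    (hV : ∀ i, lam n (C.bl i) ≤ ENNReal.ofReal V) {T : Fin C.N → Set (E n)}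
    (h1 : ∀ i j, i ≠ j → ∀ y ∈ C.ov i j, f j y ≠ 0 → α ≤ D.ψ (k j) y - 2 * (Q j y).re)
    (h2 : ∀ j, ∀ y ∈ T j, closedBall y ρ ⊆ C.bl j ∧
      ∀ w ∈ ball y ρ, D.ψ (k j) w - 2 * (Q j w).re ≤ β) {m : ℕ} (hm : 3 ≤ m)
    (hN : 48 * (C.N : ℝ) ^ 2 * C.B ^ 2 ≤ ((m : ℝ) - 2) * κ) :
    ∃ σ : D.Sec m, ∀ j, ∀ y ∈ T j,
      ‖σ.s (k j) y * Complex.exp (-(m * Q j y)) - f j y‖ ^ 2 * mv n ρ ≤
        64 * (C.N : ℝ) ^ 2 * K ^ 2 * V * Real.exp (2 * K) * Real.exp (-(m * (α - β))) := by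
  obtain ⟨Λ, ht, hφ⟩ := tv_lb (m := m) D v hk hQ hκ hv (by omega)
  have hm' : (3 : ℝ) ≤ m := by exact_mod_cast hm
  have hFy : ∀ j, ∀ y ∈ C.bl j, f j (C.e j ((C.e j).symm y)) = f j y := fun j y hy => by
    rw [(C.e j).right_inv (bl_sub C j hy)]
  have hF : ∀ j, C.Hol j fun x => f j (C.e j x) := fun j =>
    (hf j).differentiableOn.congr (hFy j)
  have hD0 : 0 ≤ K ^ 2 * Real.exp (K - m * α) := by positivity
  have hd := dd_le Λ hF (D := ENNReal.ofReal (K ^ 2 * Real.exp (K - m * α) * V)) fun i j hij => by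
    refine (nq_le (D := K ^ 2 * Real.exp (K - m * α)) (ov_open C i j).measurableSet
      fun y hy => ?_).trans ?_
    · rw [Function.comp_apply, hFy j y hy.1, hφ]
      by_cases h0 : f j y = 0
      · simpa [h0] using hD0
      · obtain ⟨a1, a2⟩ := hK j y hy.1
        have a3 := mul_le_mul_of_nonneg_left (h1 i j hij y hy h0) (Nat.cast_nonneg m)
        have a4 := (abs_le.1 a1).2
        refine mul_le_mul (pow_le_pow_left₀ (norm_nonneg _) a2 2) (Real.exp_le_exp.2 ?_)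
          (Real.exp_pos _).le (sq_nonneg _)
        rw [wv]
        linarith
    · rw [ENNReal.ofReal_mul hD0]
      gcongr
      exact (measure_mono inter_subset_left).trans (hV j)
  have e1 : 4 * (C.N : ℝ≥0∞) ^ 2 * ENNReal.ofReal (K ^ 2 * Real.exp (K - m * α) * V) =
      ENNReal.ofReal (4 * (C.N : ℝ) ^ 2 * (K ^ 2 * Real.exp (K - m * α) * V)) := by
    rw [ENNReal.ofReal_mul (p := 4 * (C.N : ℝ) ^ 2) (by positivity),
      ENNReal.ofReal_mul (p := 4) (by norm_num), ENNReal.ofReal_pow (Nat.cast_nonneg _),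
      ENNReal.ofReal_natCast, ENNReal.ofReal_ofNat]
  rw [e1] at hd
  obtain ⟨s, hs, hc, hb⟩ := core Λ (mul_pos (by linarith) hκ0) hN hF (by positivity) hd
  rw [ht] at hc
  obtain ⟨σ, hσ⟩ := tv_glue D hk hQ hs hc
  refine ⟨σ, fun j y hy => ?_⟩
  obtain ⟨b1, b2⟩ := h2 j y hy
  have hyb := b1 (mem_closedBall_self hρ.le)
  have key := hb j y ρ (m * β + K) hρ b1 fun w hw => by
    have a3 := mul_le_mul_of_nonneg_left (b2 w hw) (Nat.cast_nonneg m)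
    have a4 := (abs_le.1 (hK j w (b1 (ball_subset_closedBall hw))).1).1
    rw [hφ, wv]
    linarith
  rw [hFy j y hyb] at key
  rw [hσ j y hyb, mul_assoc, ← Complex.exp_add, add_neg_cancel, Complex.exp_zero, mul_one]
  refine key.trans (le_of_eq ?_)
  have e2 : Real.exp (m * β + K) * Real.exp (K - m * α) =
      Real.exp (2 * K) * Real.exp (-(m * (α - β))) := by
    rw [← Real.exp_add, ← Real.exp_add]
    congr 1
    ring
  linear_combination (64 * (C.N : ℝ) ^ 2 * K ^ 2 * V) * e2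

theorem pk_one (D : Tw A) (v : A.LV)
    (hp : ∀ j, ∀ y ∈ (A.e j).target, ∀ a, a ≠ 0 → 0 < levi (D.ψ j) y a)
    (hv : ∀ j, ∀ y ∈ (A.e j).target, ∀ a, levi (v.l j) y a ≤ 2 * levi (D.ψ j) y a)
    (hk : C.On A k) (hQ : ∀ i, Differentiable ℂ (Q i))
    (hf : ∀ i, Differentiable ℂ (f i)) {α β ρ : ℝ} (hαβ : β < α) (hρ : 0 < ρ)
    {T : Fin C.N → Set (E n)}
    (h1 : ∀ i j, i ≠ j → ∀ y ∈ C.ov i j, f j y ≠ 0 → α ≤ D.ψ (k j) y - 2 * (Q j y).re)
    (h2 : ∀ j, ∀ y ∈ T j, closedBall y ρ ⊆ C.bl j ∧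
      ∀ w ∈ ball y ρ, D.ψ (k j) w - 2 * (Q j w).re ≤ β) {ε : ℝ} (hε : 0 < ε) :
    ∀ᶠ m : ℕ in atTop, ∃ σ : D.Sec m, ∀ j, ∀ y ∈ T j,
      ‖σ.s (k j) y * Complex.exp (-(m * Q j y)) - f j y‖ ≤ ε := by
  have hs : ∀ i, closedBall (C.c i) (C.r i) ⊆ (A.e (k i)).target := fun i => hk i ▸ C.sub i
  choose κ' p1 p2 using fun i => levi_unif (isCompact_closedBall (C.c i) (C.r i))
    (A.e (k i)).open_target (hs i) (D.sm (k i)) fun y hy => hp (k i) y (hs i hy)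
  have p3 : ∀ᶠ t in 𝓝[>] (0 : ℝ), ∀ i, t < κ' i :=
    eventually_all.2 fun i => nhdsWithin_le_nhds (gt_mem_nhds (p1 i))
  obtain ⟨κ, p4, hκ0⟩ := (p3.and self_mem_nhdsWithin).exists
  have hκ0 : 0 < κ := hκ0
  choose K1 q1 using fun i => (isCompact_closedBall (C.c i) (C.r i)).exists_bound_of_continuousOn
    ((v.sm (k i)).continuousOn.mono (hs i))
  choose K2 q2 using fun i => (isCompact_closedBall (C.c i) (C.r i)).exists_bound_of_continuousOn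
    (hf i).continuous.continuousOn
  obtain ⟨K, q3⟩ := Finite.exists_le fun i => max (K1 i) (K2 i)
  have hV0 : 0 ≤ ∑ i, (lam n (C.bl i)).toReal := Finset.sum_nonneg fun _ _ => ENNReal.toReal_nonneg
  have hV : ∀ i, lam n (C.bl i) ≤ ENNReal.ofReal (∑ i, (lam n (C.bl i)).toReal) := fun i =>
    (ENNReal.le_ofReal_iff_toReal_le (lam_ball _ _) hV0).2
      (Finset.single_le_sum (f := fun i => (lam n (C.bl i)).toReal)
        (fun _ _ => ENNReal.toReal_nonneg) (Finset.mem_univ i))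
  have hm := mv_pos (n := n) hρ
  have t1 : Tendsto (fun m : ℕ => ((m : ℝ) - 2) * κ) atTop atTop :=
    (tendsto_atTop_add_const_right _ (-2) tendsto_natCast_atTop_atTop).atTop_mul_const hκ0
  have t2 := (Real.tendsto_exp_neg_atTop_nhds_zero.comp
    (tendsto_natCast_atTop_atTop.atTop_mul_const (sub_pos.2 hαβ))).const_mul
    (64 * (C.N : ℝ) ^ 2 * K ^ 2 * (∑ i, (lam n (C.bl i)).toReal) * Real.exp (2 * K))
  rw [mul_zero] at t2
  filter_upwards [eventually_ge_atTop 3, t1.eventually_ge_atTop (48 * (C.N : ℝ) ^ 2 * C.B ^ 2),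
    t2.eventually (ge_mem_nhds (mul_pos (pow_pos hε 2) hm))] with m m1 m2 m3
  obtain ⟨σ, hσ⟩ := pk_step D v hk hQ hf hρ hκ0 (K := K)
    (fun i y hy a => (mul_le_mul_of_nonneg_right (p4 i).le (sq_nonneg _)).trans
      (p2 i y (ball_subset_closedBall hy) a)) hv
    (fun i y hy => ⟨(q1 i y (ball_subset_closedBall hy)).trans ((le_max_left _ _).trans (q3 i)),
      (q2 i y (ball_subset_closedBall hy)).trans ((le_max_right _ _).trans (q3 i))⟩)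
    hV0 hV h1 h2 m1 m2
  exact ⟨σ, fun j y hy => (abs_le_of_sq_le_sq'
    (le_of_mul_le_mul_right ((hσ j y hy).trans m3) hm) hε.le).2⟩

theorem pk [T2Space X] [CompactSpace X] (D : Tw A) (v : A.LV)
    (hD : ∀ j, ∀ y ∈ (A.e j).target, ∀ a, a ≠ 0 → 0 < levi (D.ψ j) y a)
    (hv : ∀ j, ∀ y ∈ (A.e j).target, ∀ a, levi (v.l j) y a ≤ 2 * levi (D.ψ j) y a) {q : ℕ}
    {pt : Fin q → X} (hp : Function.Injective pt) :
    ∃ (ρ : ℝ) (P : Fin q → E n → ℂ), 0 < ρ ∧ ρ ≤ 1 ∧ (∀ l, Differentiable ℂ (P l)) ∧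
      ∀ f : Fin q → E n → ℂ, (∀ l, Differentiable ℂ (f l)) → ∀ ε : ℝ, 0 < ε →
        ∀ᶠ m : ℕ in atTop, ∃ σ : D.Sec m, ∀ l, ∀ y ∈ ball (ct A (pt l)) ρ,
          ‖σ.s (A.ch (pt l)) y * Complex.exp (-(m * P l y)) - f l y‖ ≤ ε := by
  have hct : ∀ l, ct A (pt l) ∈ (A.e (A.ch (pt l))).target := fun l =>
    (A.e _).map_source (A.cov (pt l)).choose_spec.1
  choose P R c B hP hR hc hB hT using fun l =>
    tay ((D.sm _).contDiffAt ((A.e _).open_target.mem_nhds (hct l))) (hD _ _ (hct l))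
  obtain ⟨C, k, ι, δ, hk, hδ, hδ1, hι, hl, hov⟩ := exists_cov A hp hR
  obtain ⟨c₀, hc₀, hcc⟩ : ∃ c₀ : ℝ, 0 < c₀ ∧ ∀ l, c₀ ≤ c l := by
    obtain ⟨a, h1, h2⟩ := ((eventually_all.2 fun l => Ioo_mem_nhdsGT (hc l)).and
      (self_mem_nhdsWithin (s := Ioi (0 : ℝ)))).exists
    exact ⟨a, h2, fun l => (h1 l).2.le⟩
  have hβ : 0 < c₀ * δ ^ 2 / 2 := by positivity
  obtain ⟨ρ, ⟨hρ, hρδ⟩, hρD⟩ : ∃ ρ : ℝ, ρ ∈ Ioo 0 (δ / 2) ∧
      ∀ l, B l * (2 * ρ) ^ 2 < c₀ * δ ^ 2 / 2 := by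
    refine (Eventually.and (Ioo_mem_nhdsGT (half_pos hδ)) (eventually_all.2 fun l => ?_)).exists
    have h1 : Continuous fun ρ : ℝ => B l * (2 * ρ) ^ 2 := by fun_prop
    exact ((h1.tendsto 0).eventually (gt_mem_nhds (by simpa using hβ))).filter_mono
      nhdsWithin_le_nhds
  have hbl : ∀ l, C.bl (ι l) = ball (ct A (pt l)) (C.r (ι l)) := fun l => by
    rw [Cv.bl, (hl l).2.1]
  refine ⟨ρ, P, hρ, by linarith, hP, fun f hf ε hε => ?_⟩
  have h := pk_one (T := fun j => {y | ∃ l, ι l = j ∧ y ∈ ball (ct A (pt l)) ρ}) D v hD hv hk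
    (peakx_diff hι hP) (peakx_diff hι hf) (half_lt_self (a := c₀ * δ ^ 2) (by positivity)) hρ
    (fun i j hij y hy hfy => by
      by_cases hj : ∃ l, ι l = j
      · obtain ⟨l, rfl⟩ := hj
        rw [hι.extend_apply, (hl l).1]
        have h1 : y ∈ ball (ct A (pt l)) (R l) :=
          ball_subset_ball (hl l).2.2.2 (hbl l ▸ hy.1)
        refine le_trans ?_ (hT l y h1).1
        exact mul_le_mul (hcc l) (pow_le_pow_left₀ hδ.le (hov l i hij y hy) 2) (by positivity)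
          (hc l).le
      · rw [Function.extend_apply' _ _ _ hj] at hfy
        exact absurd rfl hfy)
    (by
      rintro _ y ⟨l, rfl, hy⟩
      have h1 := mem_ball.1 hy
      obtain ⟨h2, -, h3, h4⟩ := hl l
      refine ⟨hbl l ▸ closedBall_subset_ball' (by linarith), fun w hw => ?_⟩
      rw [hι.extend_apply, h2]
      have h5 : ‖w - ct A (pt l)‖ < 2 * ρ := by
        have := dist_triangle w y (ct A (pt l))
        rw [← dist_eq_norm]
        linarith [mem_ball.1 hw]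
      refine ((hT l w (mem_ball_iff_norm.2 (by linarith))).2.trans ?_).trans (hρD l).le
      exact mul_le_mul_of_nonneg_left (pow_le_pow_left₀ (norm_nonneg _) h5.le 2) (hB l).le) hε
  filter_upwards [h] with m hm
  obtain ⟨σ, hσ⟩ := hm
  refine ⟨σ, fun l y hy => ?_⟩
  have h1 := hσ (ι l) y ⟨l, rfl, hy⟩
  rwa [hι.extend_apply, hι.extend_apply, (hl l).1] at h1

theorem tw_semi [T2Space X] [CompactSpace X] (D : Tw A) (v : A.LV)
    (hD : ∀ j, ∀ y ∈ (A.e j).target, ∀ a, a ≠ 0 → 0 < levi (D.ψ j) y a)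
    (hv : ∀ j, ∀ y ∈ (A.e j).target, ∀ a, levi (v.l j) y a ≤ 2 * levi (D.ψ j) y a) :
    ∃ m : ℕ, 1 ≤ m ∧ ∀ p, ∃ σ : D.Sec m, σ.s (A.ch p) (A.e (A.ch p) p) ≠ 0 := by
  have h : ∀ p : X, ∃ W ∈ 𝓝 p, ∀ᶠ m : ℕ in atTop, ∃ σ : D.Sec m, ∀ x ∈ W,
      σ.s (A.ch x) (A.e (A.ch x) x) ≠ 0 := fun p => by
    obtain ⟨ρ, P, hρ, -, -, h⟩ := pk D v hD hv (pt := fun _ : Fin 1 => p)
      (Function.injective_of_subsingleton _)
    refine ⟨_, loccx_near A p hρ, ?_⟩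
    filter_upwards [h (fun _ _ => 1) (fun _ => differentiable_const _) (1 / 2) (by norm_num)]
      with m hm
    obtain ⟨σ, hσ⟩ := hm
    refine ⟨σ, fun x hx => ?_⟩
    rw [σ.cmp _ _ x hx.1 (ch_mem A x).1]
    refine mul_ne_zero (fun h0 => ?_) (pow_ne_zero _ (D.ne hx.1 (ch_mem A x).1))
    have h1 := hσ 0 _ hx.2
    rw [h0] at h1
    norm_num at h1
  choose W hW h using h
  obtain ⟨t, -, ht⟩ := isCompact_univ.elim_nhds_subcover W fun z _ => hW z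
  obtain ⟨m, h1, h2⟩ := ((eventually_ge_atTop 1).and
    ((eventually_all_finset t).2 fun z _ => h z)).exists
  refine ⟨m, h1, fun p => ?_⟩
  obtain ⟨z, hz, hw⟩ := mem_iUnion₂.1 (ht (mem_univ p))
  obtain ⟨σ, hσ⟩ := h2 z hz
  exact ⟨σ, hσ p hw⟩

end Vale.Agent.P270
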