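import Vale.Agent.P272.F.K.Wt
import Vale.Agent.P272.F.K.Glue

/-! P270: a positive line bundle on a finite atlas, its weights, gluing of sections. -/

open Metric Set Filter Topology MeasureTheory
open scoped ContDiff ENNReal ComplexConjugate

noncomputable section

namespace Vale.Agent.P270

open P272 P272.K

variable {n : ℕ} {X : Type} [TopologicalSpace X]

/-- A line bundle on the atlas with weights. -/
structure Tw (A : Atl n X) where
  g : Fin A.N → Fin A.N → X → ℂ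
  an : ∀ j k l x, x ∈ (A.e j).source → x ∈ (A.e k).source → x ∈ (A.e l).source →
    DifferentiableAt ℂ (g j k ∘ (A.e l).symm) (A.e l x)
  coc : ∀ i j k x, x ∈ (A.e i).source → x ∈ (A.e j).source → x ∈ (A.e k).source →
    g i j x * g j k x = g i k x
  one : ∀ i x, x ∈ (A.e i).source → g i i x = 1
  ψ : Fin A.N → E n → ℝ
  sm : ∀ j, ContDiffOn ℝ ∞ (ψ j) (A.e j).target
  cmp : ∀ j k x, x ∈ (A.e j).source → x ∈ (A.e k).source →
    ψ k (A.e k x) = ψ j (A.e j x) + Real.log (‖g j k x‖ ^ 2)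

variable {A : Atl n X}

/-- A section of the `m`-th power. -/
structure Tw.Sec (D : Tw A) (m : ℕ) where
  s : Fin A.N → E n → ℂ
  hol : ∀ j, DifferentiableOn ℂ (s j) (A.e j).target
  cmp : ∀ j k x, x ∈ (A.e j).source → x ∈ (A.e k).source →
    s k (A.e k x) = s j (A.e j x) * D.g j k x ^ m

theorem Tw.ne (D : Tw A) {i j : Fin A.N} {x : X} (hi : x ∈ (A.e i).source)
    (hj : x ∈ (A.e j).source) : D.g i j x ≠ 0 := by
  intro h
  have h1 := D.coc i j i x hi hj hi
  rw [h, zero_mul, D.one i x hi] at h1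
  exact zero_ne_one h1

/-- The transition functions in the twisted frames. -/
def tv {C : Cv n X} (D : Tw A) (k : Fin C.N → Fin A.N) (Q : Fin C.N → E n → ℂ) (m : ℕ)
    (i j : Fin C.N) (x : X) : ℂ :=
  D.g (k i) (k j) x ^ m * Complex.exp (m * Q i (C.e i x) - m * Q j (C.e j x))

/-- The weights in the twisted frames. -/
def wv {C : Cv n X} (D : Tw A) (v : A.LV) (k : Fin C.N → Fin A.N) (Q : Fin C.N → E n → ℂ) (m : ℕ)
    (i : Fin C.N) (y : E n) : ℝ :=
  ((m : ℝ) * D.ψ (k i) y - 1 * v.l (k i) y) - 2 * m * (Q i y).re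

variable {C : Cv n X} {k : Fin C.N → Fin A.N} {Q : Fin C.N → E n → ℂ} {m : ℕ}

theorem tv_pt (D : Tw A) (v : A.LV) (hk : C.On A k) {i j : Fin C.N} {x : X} (hi : x ∈ C.U i)
    (hj : x ∈ C.U j) :
    ‖tv D k Q m i j x‖ ^ 2 * Real.exp (-wv D v k Q m j (C.e j x)) =
      ‖dt A (k i) (k j) x‖ ^ 2 * Real.exp (-wv D v k Q m i (C.e i x)) := by
  have hi' := gluex_src hk hi
  have hj' := gluex_src hk hj
  have hd : 0 < ‖dt A (k i) (k j) x‖ ^ 2 := pow_pos (norm_pos_iff.2 (dt_ne hi' hj')) 2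
  have hg : 0 < ‖D.g (k i) (k j) x‖ ^ 2 := pow_pos (norm_pos_iff.2 (D.ne hi' hj')) 2
  have hc := v.cmp (k i) (k j) x hi' hj'
  have hc' := D.cmp (k i) (k j) x hi' hj'
  rw [← hk i, ← hk j] at hc hc'
  change _ = _ + Real.log (‖dt A (k i) (k j) x‖ ^ 2) at hc
  unfold tv wv
  rw [hc, hc', norm_mul, norm_pow, Complex.norm_exp, mul_pow, ← pow_mul, mul_comm m 2, pow_mul]
  generalize ‖dt A (k i) (k j) x‖ ^ 2 = D1 at hd ⊢
  generalize ‖D.g (k i) (k j) x‖ ^ 2 = D2 at hg ⊢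
  obtain ⟨t, rfl⟩ : ∃ t, D1 = Real.exp t := ⟨Real.log D1, (Real.exp_log hd).symm⟩
  obtain ⟨s, rfl⟩ : ∃ t, D2 = Real.exp t := ⟨Real.log D2, (Real.exp_log hg).symm⟩
  rw [Real.log_exp, Real.log_exp, ← Real.exp_nat_mul, ← Real.exp_nat_mul, ← Real.exp_add,
    ← Real.exp_add, ← Real.exp_add]
  refine congrArg Real.exp ?_
  simp only [Complex.sub_re, Complex.mul_re, Complex.natCast_re, Complex.natCast_im, zero_mul,
    sub_zero]
  push_cast
  ring

theorem tv_cv (D : Tw A) (v : A.LV) (hk : C.On A k) (i j : Fin C.N) (f : X → ℂ) :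
    nq (wv D v k Q m j) (C.ov i j) ((fun x => tv D k Q m i j x * f x) ∘ (C.e j).symm) ≤
      nq (wv D v k Q m i) (C.ov j i) (f ∘ (C.e i).symm) := by
  have hS := (ov_open C i j).measurableSet
  have hU : ∀ y ∈ C.ov i j, (C.e j).symm y ∈ C.U j ∧ C.e j ((C.e j).symm y) = y := fun y hy =>
    ⟨symm_mem_U hy.1, (C.e j).right_inv (bl_sub C j hy.1)⟩
  have hT : ∀ y ∈ C.ov i j, DifferentiableAt ℂ (C.e i ∘ (C.e j).symm) y := fun y hy => by
    have h := (C.an i j _ (show (C.e j).symm y ∈ C.U i from hy.2).1 (hU y hy).1.1).differentiableAt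
    rwa [(hU y hy).2] at h
  have hI : InjOn (C.e i ∘ (C.e j).symm) (C.ov i j) := fun y hy z hz h => by
    have h2 := (C.e i).injOn (show (C.e j).symm y ∈ C.U i from hy.2).1
      (show (C.e j).symm z ∈ C.U i from hz.2).1 h
    rw [← (hU y hy).2, h2, (hU z hz).2]
  have hsub : (C.e i ∘ (C.e j).symm) '' C.ov i j ⊆ C.ov j i := by
    rintro _ ⟨y, hy, rfl⟩
    exact mem_ov (hU y hy).1 hy.2
  unfold nq
  refine le_trans (le_of_eq ?_) (lintegral_mono_set hsub)
  rw [cv_flat hS hT hI]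
  refine setLIntegral_congr_fun hS fun y hy => ?_
  have hyi : (C.e j).symm y ∈ C.U i := hy.2
  have h := tv_pt (Q := Q) (m := m) D v hk hyi (hU y hy).1
  have hd : (fderiv ℂ (C.e i ∘ (C.e j).symm) y).det = dt A (k i) (k j) ((C.e j).symm y) := by
    unfold dt Atl.tr
    rw [← hk i, ← hk j, (hU y hy).2]
  rw [(hU y hy).2] at h
  simp only [Function.comp_apply]
  rw [← ENNReal.ofReal_mul (by positivity), hd, (C.e i).left_inv hyi.1, norm_mul, mul_pow]
  refine congrArg ENNReal.ofReal ?_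
  linear_combination ‖f ((C.e j).symm y)‖ ^ 2 * h

theorem tv_lb (D : Tw A) (v : A.LV) (hk : C.On A k) (hQ : ∀ i, Differentiable ℂ (Q i)) {κ : ℝ}
    (hκ : ∀ i, ∀ y ∈ C.bl i, ∀ a, κ * ‖a‖ ^ 2 ≤ levi (D.ψ (k i)) y a)
    (hv : ∀ j, ∀ y ∈ (A.e j).target, ∀ a, levi (v.l j) y a ≤ 2 * levi (D.ψ j) y a) (hm : 2 ≤ m) :
    ∃ Λ : Lb C (((m : ℝ) - 2) * κ), Λ.t = tv D k Q m ∧ Λ.φ = wv D v k Q m := by
  have hs : ∀ i x, x ∈ C.U i → x ∈ (A.e (k i)).source := fun i x hx => gluex_src hk hx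
  have hA : ∀ i y, AnalyticAt ℂ (Q i) y := fun i y =>
    P278.osgood_at (Eventually.of_forall (hQ i))
  have hR : ∀ i y, ContDiffAt ℝ ∞ (fun w => (Q i w).re) y := fun i y =>
    Complex.reCLM.contDiff.contDiffAt.comp y ((hA i y).contDiffAt.restrict_scalars ℝ)
  have ht : ∀ i, ∀ y ∈ C.bl i, y ∈ (A.e (k i)).target := fun i y hy => by
    rw [← hk i]
    exact bl_sub C i hy
  have hL : ∀ i, ∀ y ∈ C.bl i, ContDiffAt ℝ ∞ (v.l (k i)) y := fun i y hy =>
    (v.sm (k i)).contDiffAt ((A.e (k i)).open_target.mem_nhds (ht i y hy))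
  have hP : ∀ i, ∀ y ∈ C.bl i, ContDiffAt ℝ ∞ (D.ψ (k i)) y := fun i y hy =>
    (D.sm (k i)).contDiffAt ((A.e (k i)).open_target.mem_nhds (ht i y hy))
  have hW : ∀ i, ∀ y ∈ C.bl i,
      ContDiffAt ℝ ∞ (fun y => (m : ℝ) * D.ψ (k i) y - 1 * v.l (k i) y) y := fun i y hy =>
    (contDiffAt_const.mul (hP i y hy)).sub (contDiffAt_const.mul (hL i y hy))
  refine ⟨⟨tv D k Q m, fun i j y hy => DifferentiableAt.differentiableWithinAt ?_,
    fun i j l x hi hj hl => ?_, fun i x hi => ?_, wv D v k Q m,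
    fun i y hy => ContDiffAt.contDiffWithinAt ?_, fun i y hy a => ?_, tv_cv D v hk⟩, rfl, rfl⟩
  · have hj := symm_mem_U hy.1
    have e : C.e j ((C.e j).symm y) = y := (C.e j).right_inv (bl_sub C j hy.1)
    have h1 := D.an _ _ _ _ (hs i _ hy.2) (hs j _ hj) (hs j _ hj)
    have h2 := (C.an i j _ hy.2.1 hj.1).differentiableAt
    have h3 := (C.an j j _ hj.1 hj.1).differentiableAt
    rw [← hk j, e] at h1
    rw [e] at h2 h3
    exact (h1.pow m).mul
      (((((hQ i _).comp y h2).const_mul (m : ℂ)).sub (((hQ j _).comp y h3).const_mul (m : ℂ))).cexp)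
  · unfold tv
    rw [← D.coc _ _ _ _ (hs i x hi) (hs j x hj) (hs l x hl), mul_pow, mul_mul_mul_comm,
      ← Complex.exp_add, sub_add_sub_cancel]
  · unfold tv
    rw [D.one _ _ (hs i x hi), one_pow, sub_self, Complex.exp_zero, mul_one]
  · exact (hW i y hy).sub (contDiffAt_const.mul (hR i y))
  · have h1 := levi_lin ((hW i y hy).of_le ENat.LEInfty.out) ((hR i y).of_le ENat.LEInfty.out)
      1 (2 * m) a
    rw [levi_re (hA i y), mul_zero, sub_zero, levi_lin ((hP i y hy).of_le ENat.LEInfty.out)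
      ((hL i y hy).of_le ENat.LEInfty.out)] at h1
    simp only [one_mul] at h1
    have h2 : (0 : ℝ) ≤ (m : ℝ) - 2 := sub_nonneg.2 (by exact_mod_cast hm)
    have h3 := mul_le_mul_of_nonneg_left (hκ i y hy a) h2
    have h4 := hv _ y (ht i y hy) a
    have h5 : levi (wv D v k Q m i) y a =
        m * levi (D.ψ (k i)) y a - levi (v.l (k i)) y a := by
      rw [← h1]
      unfold wv
      simp only [one_mul]
    rw [h5]
    linarith

theorem tv_diff (D : Tw A) (hk : C.On A k) (hQ : ∀ i, Differentiable ℂ (Q i)) {f : X → ℂ}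
    {i : Fin C.N} (hf : C.Hol i f) {j : Fin A.N} {x : X} (hi : x ∈ C.U i)
    (hj : x ∈ (A.e j).source) :
    DifferentiableAt ℂ (fun y => f ((A.e j).symm y) *
      Complex.exp (m * Q i (C.e i ((A.e j).symm y))) * D.g (k i) j ((A.e j).symm y) ^ m)
      (A.e j x) := by
  have h1 := gluex_diff (m := 0) hk hQ hf hi hj
  simp only [Nat.cast_zero, zero_mul, Complex.exp_zero, pow_zero, mul_one] at h1
  have h2 : DifferentiableAt ℂ (C.e i ∘ (A.e j).symm) (A.e j x) := by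
    rw [hk i]
    exact (an_tr (gluex_src hk hi) hj).differentiableAt
  have h4 : DifferentiableAt ℂ (fun y => Q i (C.e i ((A.e j).symm y))) (A.e j x) :=
    (hQ i _).comp (A.e j x) h2
  have h5 : DifferentiableAt ℂ (fun y => D.g (k i) j ((A.e j).symm y)) (A.e j x) :=
    D.an _ _ _ _ (gluex_src hk hi) hj hj
  exact (h1.fun_mul (h4.const_mul _).cexp).fun_mul (h5.fun_pow m)

theorem tv_glue (D : Tw A) (hk : C.On A k) (hQ : ∀ i, Differentiable ℂ (Q i))
    {s : Fin C.N → X → ℂ} (hs : ∀ i, C.Hol i (s i))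
    (hc : ∀ i j x, x ∈ C.U i → x ∈ C.U j → s j x = tv D k Q m i j x * s i x) :
    ∃ σ : D.Sec m, ∀ i, ∀ y ∈ C.bl i,
      σ.s (k i) y = s i ((C.e i).symm y) * Complex.exp (m * Q i y) := by
  choose I hI using exists_U C
  have ind : ∀ i i' j x, x ∈ C.U i → x ∈ C.U i' → x ∈ (A.e j).source →
      s i' x * Complex.exp (m * Q i' (C.e i' x)) * D.g (k i') j x ^ m =
        s i x * Complex.exp (m * Q i (C.e i x)) * D.g (k i) j x ^ m := by
    intro i i' j x hi hi' hj
    have h0 := Complex.exp_ne_zero (m * Q i' (C.e i' x))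
    rw [hc i i' x hi hi', ← D.coc _ _ _ _ (gluex_src hk hi) (gluex_src hk hi') hj, mul_pow, tv,
      Complex.exp_sub]
    field_simp
  refine ⟨⟨fun j y => s (I ((A.e j).symm y)) ((A.e j).symm y) *
    Complex.exp (m * Q (I ((A.e j).symm y)) (C.e (I ((A.e j).symm y)) ((A.e j).symm y))) *
      D.g (k (I ((A.e j).symm y))) j ((A.e j).symm y) ^ m, fun j y hy => ?_,
    fun j l x hj hl => ?_⟩, fun i y hy => ?_⟩
  · have hx := (A.e j).map_target hy
    have h1 := tv_diff (m := m) D hk hQ (hs (I ((A.e j).symm y))) (hI _) hx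
    rw [(A.e j).right_inv hy] at h1
    refine (h1.congr_of_eventuallyEq ?_).differentiableWithinAt
    filter_upwards [(A.e j).open_target.mem_nhds hy, ((A.e j).continuousAt_symm hy).eventually
      ((U_open C _).mem_nhds (hI ((A.e j).symm y)))] with w h2 h3
    exact ind _ _ j _ h3 (hI _) ((A.e j).map_target h2)
  · simp only [(A.e j).left_inv hj, (A.e l).left_inv hl]
    rw [← D.coc _ _ _ _ (gluex_src hk (hI x)) hj hl, mul_pow, ← mul_assoc]
  · have h1 := symm_mem_U hy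
    have h2 := (C.e i).right_inv (bl_sub C i hy)
    have h3 := ind i _ (k i) _ h1 (hI _) (gluex_src hk h1)
    rw [D.one _ _ (gluex_src hk h1), one_pow, mul_one, h2] at h3
    simp only [← hk i]
    exact h3

end Vale.Agent.P270
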